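import Vale.Agent.P214T.Defs

/-! Blow-up in the parameter space (row BLA). -/

open MeasureTheory Set Filter Topology Metric
open scoped ENNReal NNReal

namespace Vale.Agent.P214T

namespace BlaH

variable {X : Type*} [NormedAddCommGroup X] [NormedSpace ℝ X] [FiniteDimensional ℝ X]
  [MeasurableSpace X] [BorelSpace X] (ν : Measure X) [ν.IsAddHaarMeasure]

theorem dens {s : Set X} {a : X} {R : ℝ} (hR : 0 < R)
    (h : Tendsto (fun r : ℝ => ν (s ∩ closedBall a r) / ν (closedBall a r)) (𝓝[>] 0) (𝓝 1)) :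
    Tendsto (fun r : ℝ => ν.real (closedBall 0 R ∩ {v | a + r • v ∈ s})) (𝓝[>] 0)
      (𝓝 (ν.real (closedBall 0 R))) := by
  have h0 : ν.real (closedBall (0 : X) R) ≠ 0 :=
    (ENNReal.toReal_pos (measure_closedBall_pos ν 0 hR).ne' measure_closedBall_lt_top.ne).ne'
  have h1 : Tendsto (fun r : ℝ => r * R) (𝓝[>] 0) (𝓝[>] 0) :=
    tendsto_nhdsWithin_iff.2 ⟨((continuous_mul_const R).tendsto' 0 0 (zero_mul R)).mono_left
      nhdsWithin_le_nhds, eventually_mem_nhdsWithin.mono fun r hr => mul_pos hr hR⟩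
  have h2 := ((ENNReal.tendsto_toReal ENNReal.one_ne_top).comp (h.comp h1)).mul_const
    (ν.real (closedBall (0 : X) R))
  rw [ENNReal.toReal_one, one_mul] at h2
  refine h2.congr' (eventually_mem_nhdsWithin.mono fun r (hr : 0 < r) => ?_)
  have k : ∀ T : Set X, ν ((fun v => a + r • v) ⁻¹' T) =
      ENNReal.ofReal |(r ^ Module.finrank ℝ X)⁻¹| * ν T := fun T => by
    rw [← measure_preimage_add ν a T, ← Measure.addHaar_preimage_smul ν hr.ne']
    rfl
  have e : (fun v => a + r • v) ⁻¹' closedBall a (r * R) = closedBall 0 R := Set.ext fun v => by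
    simp only [mem_preimage, mem_closedBall, dist_self_add_left, dist_zero_right, norm_smul,
      Real.norm_of_nonneg hr.le, mul_le_mul_iff_right₀ hr]
  have k1 := k (s ∩ closedBall a (r * R))
  have k2 := k (closedBall a (r * R))
  rw [preimage_inter, e, inter_comm] at k1
  rw [e] at k2
  simp only [Function.comp]
  rw [← ENNReal.mul_div_mul_left _ _ (c := ENNReal.ofReal |(r ^ Module.finrank ℝ X)⁻¹|)
    (ENNReal.ofReal_pos.2 (by positivity)).ne' ENNReal.ofReal_ne_top, ← k1, ← k2,
    ENNReal.toReal_div]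
  exact div_mul_cancel₀ _ h0

end BlaH

theorem bla82 (m : ℕ) (E : Type*) [NormedAddCommGroup E] [InnerProductSpace ℝ E]
    [FiniteDimensional ℝ E] [MeasurableSpace E] [BorelSpace E] : BLA m E := by
  intro f η s a hf hη hs ha hd g hg hc
  have := P214.AREA.haar_euc m
  set ν : Measure (F m) := μH[m]
  obtain ⟨c, c0, h1⟩ := hs.lower hη
  obtain ⟨sm, c', c0', h2⟩ := hs
  obtain ⟨h2, h3, -⟩ := h2 a ha
  obtain ⟨R, R0, hR⟩ := hc.exists_pos_le_norm
  obtain ⟨M, hM⟩ := hg.bounded_above_of_compact_support hc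
  let B : Set (F m) := closedBall 0 (R / min c c')
  have p0 : 0 < min c c' := lt_min c0 c0'
  have hB : ∀ v ∉ B, ∀ y : E, min c c' * ‖v‖ ≤ ‖y‖ → g y = 0 := fun v hv y hy => hR y (by
    rw [mem_closedBall_zero_iff, not_le, div_lt_iff₀' p0] at hv
    exact hv.le.trans hy)
  let K : ℝ → F m → ℝ := fun r v => g (r⁻¹ • (f (a + r • v) - f a))
  let A : ℝ → Set (F m) := fun r => {v | a + r • v ∈ s}
  have cK : ∀ r, Continuous (K r) := fun r => by fun_prop
  have mA : ∀ r, MeasurableSet (A r) := fun r =>
    sm.preimage (by fun_prop : Continuous fun v : F m => a + r • v).measurable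
  have t1 : Tendsto (fun r => ∫ v in B, K r v ∂ν) (𝓝[>] 0) (𝓝 (∫ v, g (fderiv ℝ f a v) ∂ν)) := by
    rw [← setIntegral_eq_integral_of_forall_compl_eq_zero (s := B) fun v hv => hB v hv _
      ((mul_le_mul_of_nonneg_right (min_le_right _ _) (norm_nonneg v)).trans (h3 v))]
    exact tendsto_integral_filter_of_dominated_convergence (fun _ => M)
      (.of_forall fun r => (cK r).aestronglyMeasurable)
      (.of_forall fun r => .of_forall fun v => hM _)
      (integrableOn_const measure_closedBall_lt_top.ne) (.of_forall fun v =>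
        (hg.tendsto _).comp (h2.hasFDerivAt.hasLineDerivAt v).tendsto_slope_zero_right)
  have t2 : Tendsto (fun r => ∫ v in B \ A r, K r v ∂ν) (𝓝[>] 0) (𝓝 0) := by
    have k := ((BlaH.dens ν (div_pos R0 p0) hd).const_sub (ν.real B)).const_mul M
    rw [sub_self, mul_zero] at k
    refine squeeze_zero_norm (fun r => ?_) k
    rw [← measureReal_inter_add_diff (μ := ν) (s := B) (mA r) measure_closedBall_lt_top.ne,
      add_sub_cancel_left]
    exact norm_setIntegral_le_of_norm_le_const
      ((measure_mono diff_subset).trans_lt measure_closedBall_lt_top) fun v _ => hM _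
  have t3 := t1.sub t2
  rw [sub_zero] at t3
  refine t3.congr' (eventually_mem_nhdsWithin.mono fun r (hr : 0 < r) => ?_)
  have e1 := Measure.integral_comp_smul ν
    (fun w => s.indicator (fun b => g (r⁻¹ • (f b - f a))) (a + w)) r
  rw [integral_add_left_eq_self, integral_indicator sm, finrank_euclideanSpace_fin,
    abs_of_pos (by positivity), smul_eq_mul, inv_mul_eq_div] at e1
  simp only
  rw [← e1, ← integral_inter_add_diff (mA r)
    ((cK r).continuousOn.integrableOn_compact (isCompact_closedBall _ _)), add_sub_cancel_right,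
    ← setIntegral_indicator (mA r), setIntegral_eq_integral_of_forall_compl_eq_zero]
  · rfl
  · intro v hv
    refine indicator_apply_eq_zero.2 fun k => hB v hv _ ?_
    have k1 := h1 _ k a ha
    rw [add_sub_cancel_left, norm_smul, Real.norm_of_nonneg hr.le] at k1
    rw [norm_smul, Real.norm_of_nonneg (inv_pos.2 hr).le, le_inv_mul_iff₀ hr]
    refine le_trans ?_ k1
    rw [mul_left_comm c]
    gcongr
    exact min_le_left _ _

end Vale.Agent.P214T
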