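import Vale.Agent.P214T.Defs

/-! The two-sided blow-up bound on the image of a piece. -/

open MeasureTheory Set Filter Topology Metric
open scoped ENNReal NNReal

set_option linter.all false

namespace Vale.Agent.P214T

open Vale.Agent.P214

namespace BlbH

variable {m : ℕ} {E : Type*} [NormedAddCommGroup E] [InnerProductSpace ℝ E]
  [FiniteDimensional ℝ E] [MeasurableSpace E] [BorelSpace E]

lemma app {f : F m → E} (hf : Continuous f) (s : Set (F m)) {B : Set E} (hB : MeasurableSet B) :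
    (μH[m] : Measure E).restrict (f '' s) B = μH[m] (f '' (f ⁻¹' B ∩ s)) ∧
      ((μH[m] : Measure (F m)).restrict s).map f B = μH[m] (f ⁻¹' B ∩ s) := by
  rw [Measure.restrict_apply hB, Measure.map_apply hf.measurable hB,
    Measure.restrict_apply (hf.measurable hB), image_preimage_inter]
  exact ⟨rfl, rfl⟩

lemma two {f : F m → E} {η : ℝ} {s : Set (F m)} {a : F m} {J : ℝ≥0} (hf : Continuous f)
    (h0 : 0 < η) (h1 : η < 1) (hs : Pc f η s) (ha : a ∈ s)
    (hJ : ∀ B : Set (F m), (μH[m] : Measure E) (fderiv ℝ f a '' B) = J * (μH[m] : Measure (F m)) B)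
    {h : E → ℝ} (hc : Continuous h) (hp : ∀ y, 0 ≤ h y)
    (hi : IntegrableOn (fun b => h (f b)) s (μH[m] : Measure (F m))) :
    (1 - η) ^ m * J * ∫ b in s, h (f b) ∂(μH[m] : Measure (F m)) ≤ ∫ z in f '' s, h z ∂μH[m] ∧
      ∫ z in f '' s, h z ∂μH[m] ≤ (1 + η) ^ m * J * ∫ b in s, h (f b) ∂(μH[m] : Measure (F m)) := by
  obtain ⟨-, c, -, hs⟩ := hs
  have k := (hs a ha).2.2
  have p1 : 0 < 1 - η := sub_pos.2 h1
  let K₁ : ℝ≥0 := ⟨1 + η, by linarith⟩
  let K₂ : ℝ≥0 := ⟨(1 - η)⁻¹, by positivity⟩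
  have m1 : (μH[m] : Measure E).restrict (f '' s) ≤
      (K₁ ^ m * J) • ((μH[m] : Measure (F m)).restrict s).map f := by
    refine Measure.le_iff.2 fun B hB => ?_
    rw [Measure.smul_apply, (app hf s hB).1, (app hf s hB).2, ENNReal.smul_def, smul_eq_mul,
      ENNReal.coe_mul, mul_assoc, ← hJ, ENNReal.coe_pow, ← ENNReal.rpow_natCast]
    refine img (fun x hx y hy => ?_) (Nat.cast_nonneg m)
    have e := norm_sub_norm_le (f x - f y) (fderiv ℝ f a (x - y))
    rw [dist_eq_norm, dist_eq_norm, ← map_sub]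
    show _ ≤ (1 + η) * _
    linarith [k x hx.2 y hy.2]
  have m2 : J • ((μH[m] : Measure (F m)).restrict s).map f ≤
      K₂ ^ m • (μH[m] : Measure E).restrict (f '' s) := by
    refine Measure.le_iff.2 fun B hB => ?_
    rw [Measure.smul_apply, Measure.smul_apply, (app hf s hB).1, (app hf s hB).2, ENNReal.smul_def,
      ENNReal.smul_def, smul_eq_mul, smul_eq_mul, ← hJ, ENNReal.coe_pow, ← ENNReal.rpow_natCast]
    refine img (fun x hx y hy => ?_) (Nat.cast_nonneg m)
    have e := norm_sub_norm_le (fderiv ℝ f a (x - y)) (f x - f y)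
    rw [norm_sub_rev (fderiv ℝ f a (x - y))] at e
    rw [dist_eq_norm, dist_eq_norm, ← map_sub]
    show _ ≤ (1 - η)⁻¹ * _
    rw [le_inv_mul_iff₀ p1]
    linarith [k x hx.2 y hy.2]
  have i1 : Integrable h (((μH[m] : Measure (F m)).restrict s).map f) :=
    (integrable_map_measure hc.aestronglyMeasurable hf.aemeasurable).2 hi
  have i2 := i1.smul_measure_nnreal (c := K₁ ^ m * J)
  have i3 := (i2.mono_measure m1).smul_measure_nnreal (c := K₂ ^ m)
  have l1 := integral_mono_measure m1 (ae_of_all _ hp) i2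
  have l2 := integral_mono_measure m2 (ae_of_all _ hp) i3
  rw [integral_smul_nnreal_measure, integral_map hf.aemeasurable hc.aestronglyMeasurable] at l1 l2
  rw [integral_smul_nnreal_measure] at l2
  simp only [NNReal.smul_def, NNReal.coe_mul, NNReal.coe_pow, smul_eq_mul] at l1 l2
  refine ⟨?_, l1⟩
  replace l2 : _ ≤ (1 - η)⁻¹ ^ m * _ := l2
  rw [inv_pow, le_inv_mul_iff₀ (pow_pos p1 m)] at l2
  rwa [mul_assoc]

end BlbH

open BlbH in
/-- the row `BLB` -/
theorem rowBLB (m : ℕ) (E : Type*) [NormedAddCommGroup E] [InnerProductSpace ℝ E]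
    [FiniteDimensional ℝ E] [MeasurableSpace E] [BorelSpace E] : RowBLB m E := by
  intro hJ hA f η s a hf h0 h1 hs ha hd g hg hc hp ε hε
  obtain ⟨-, J, j1, j2⟩ := hJ _ (hs.good ha).2
  have lim := hA f η s a hf h1 hs ha hd g hg hc
  obtain ⟨c, c0, hl⟩ := hs.lower h1
  obtain ⟨R, R0, hR⟩ := hc.exists_pos_le_norm
  haveI := AREA.haar_euc m
  rw [j2 g hg, ← mul_assoc, ← mul_assoc]
  filter_upwards [self_mem_nhdsWithin,
    (lim.const_mul ((1 - η) ^ m * J)).eventually_const_le (sub_lt_self _ hε),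
    (lim.const_mul ((1 + η) ^ m * J)).eventually_le_const (lt_add_of_pos_right _ hε)]
    with r (r0 : 0 < r) k1 k2
  have hc' : Continuous fun z : E => g (r⁻¹ • (z - f a)) := by fun_prop
  have hi : IntegrableOn (fun b => g (r⁻¹ • (f b - f a))) s (μH[m] : Measure (F m)) := by
    refine ((hc'.comp hf).continuousOn.integrableOn_compact
      (isCompact_closedBall a (R * r / c))).of_forall_diff_eq_zero hs.1 fun b hb => hR _ ?_
    have e1 := hl b hb.1 a ha
    have e2 : R * r / c < ‖b - a‖ := not_le.1 fun e => hb.2 (mem_closedBall_iff_norm.2 e)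
    rw [div_lt_iff₀' c0] at e2
    rw [norm_smul, norm_inv, Real.norm_of_nonneg r0.le, le_inv_mul_iff₀' r0]
    linarith
  obtain ⟨t1, t2⟩ := two hf h0 h1 hs ha j1 hc' (fun _ => hp _) hi
  rw [← mul_div_assoc] at k1 k2
  exact ⟨k1.trans (div_le_div_of_nonneg_right t1 (pow_pos r0 m).le),
    (div_le_div_of_nonneg_right t2 (pow_pos r0 m).le).trans k2⟩

end Vale.Agent.P214T
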