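import Vale.Agent.P214T.Defs

/-! Row BLOW: tangent planes on the image of a piece. -/

open MeasureTheory Set Filter Topology Metric
open scoped ENNReal NNReal

namespace Vale.Agent.P214T

open Vale.Agent.P214

variable (m : ℕ) (E : Type*) [NormedAddCommGroup E] [InnerProductSpace ℝ E]
  [FiniteDimensional ℝ E] [MeasurableSpace E] [BorelSpace E]

lemma Blow99.dp (t : Set (F m)) : (μH[m] : Measure (F m)) {a | a ∈ t ∧ ¬ Dp t a} = 0 := by
  have := AREA.haar_euc m
  have h := Besicovitch.ae_tendsto_measure_inter_div (μH[m] : Measure (F m)) t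
  have h2 := ae_imp_of_ae_restrict h
  rw [ae_iff] at h2
  refine measure_mono_null (fun a ha => ?_) h2
  exact fun k => ha.2 (k ha.1)

lemma Blow99.eta (I : ℝ) {ε : ℝ} (hε : 0 < ε) : ∃ k : ℕ,
    I - ε < (1 - 1 / ((k : ℝ) + 2)) ^ m * I ∧ (1 + 1 / ((k : ℝ) + 2)) ^ m * I < I + ε := by
  have h0 : Tendsto (fun k : ℕ => 1 / ((k : ℝ) + 2)) atTop (𝓝 0) :=
    tendsto_const_nhds.div_atTop (tendsto_atTop_add_const_right _ _ tendsto_natCast_atTop_atTop)
  have h1 := ((h0.const_sub 1).pow m).mul_const I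
  have h2 := ((h0.const_add 1).pow m).mul_const I
  simp only [sub_zero, add_zero, one_pow, one_mul] at h1 h2
  exact ((h1.eventually (lt_mem_nhds (sub_lt_self I hε))).and
    (h2.eventually (gt_mem_nhds (lt_add_of_pos_right I hε)))).exists

theorem blow99 : RowBLOW m E := by
  intro hC hJ hD hB hL hP μ _ f K s q hf hs hμ
  have hη : ∀ k : ℕ, 0 < 1 / ((k : ℝ) + 2) := fun k => by positivity
  have hη' : ∀ k : ℕ, 1 / ((k : ℝ) + 2) < 1 := fun k => by
    rw [div_lt_one (by positivity)]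
    linarith [Nat.cast_nonneg (α := ℝ) k]
  choose u u1 u2 using fun k : ℕ => hC f _ (hη k)
  have t1 : ∀ k n : ℕ, Pc f (1 / ((k : ℝ) + 2)) (s ∩ u k n) := fun k n =>
    (u1 k n).mono (hs.1.inter (u1 k n).1) inter_subset_right
  have t2 : ∀ k n, MeasurableSet (f '' (s ∩ u k n)) := fun k n =>
    (t1 k n).1.image_of_continuousOn_injOn hf.continuous.continuousOn ((t1 k n).injOn (hη' k))
  have t3 : ∀ A ⊆ f '' s, μ.restrict A = (q : ℝ≥0∞) • (μH[m] : Measure E).restrict A :=
    fun A hA => by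
      rw [← Measure.restrict_restrict_of_subset hA, hμ, Measure.restrict_smul,
        Measure.restrict_restrict_of_subset hA]
  have t4 : ∀ A ⊆ f '' s, μ A = q * (μH[m] : Measure E) A := fun A hA => by
    rw [← Measure.restrict_apply_self, t3 A hA, Measure.smul_apply, Measure.restrict_apply_self,
      smul_eq_mul]
  have t5 : ∀ k n, ∀ᵐ y ∂μ, y ∉ f '' {a | a ∈ s ∩ u k n ∧ ¬ Dp (s ∩ u k n) a} := fun k n => by
    refine measure_eq_zero_iff_ae_notMem.1 ?_
    rw [t4 _ (image_mono fun a ha => ha.1.1)]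
    refine mul_eq_zero_of_right _ (le_antisymm ((hf.hausdorffMeasure_image_le
      (Nat.cast_nonneg m) _).trans ?_) zero_le)
    rw [Blow99.dp, mul_zero]
  filter_upwards [ae_all_iff.2 fun k => ae_all_iff.2 (t5 k),
    ae_all_iff.2 fun k => ae_all_iff.2 fun n => hD μ _ (t2 k n)] with y h1 h2
  rintro a ha rfl
  refine hP μ _ q _ (hJ _ (hs.good ha).2).1 fun g g1 g2 g3 => ?_
  set I := ∫ y in (rg (fderiv ℝ f a) : Set E), g y ∂μH[m]
  refine Metric.tendsto_nhds.2 fun ε hε => ?_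
  have hδ : 0 < ε / (2 * q + 2) := by positivity
  obtain ⟨k, k1, k2⟩ := Blow99.eta m I hδ
  obtain ⟨n, hn⟩ := mem_iUnion.1 (u2 k (hs.good ha))
  have hm : a ∈ s ∩ u k n := ⟨ha, hn⟩
  obtain ⟨C, hC⟩ := hB f K _ _ hf (hη' k) (t1 k n)
  have h3 := h2 k n (mem_image_of_mem f hm) (q * C) (fun r hr => by
    rw [t4 _ (inter_subset_left.trans (image_mono inter_subset_left)), mul_assoc,
      ENNReal.ofReal_mul (Nat.cast_nonneg q), ENNReal.ofReal_natCast]
    exact mul_le_mul_right (hC a hm r hr) _) g g1 g2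
  filter_upwards [hL f _ _ a hf.continuous (hη k) (hη' k) (t1 k n) hm
    (by_contra fun c => h1 k n ⟨a, ⟨hm, c⟩, rfl⟩) g g1 g2 g3 _ hδ,
    Metric.tendsto_nhds.1 h3 _ hδ] with r h4 h5
  obtain ⟨M, hM⟩ := g1.bounded_above_of_compact_support g2
  have h6 : Integrable (fun z => g (r⁻¹ • (z - f a))) μ :=
    Integrable.of_bound (by fun_prop) M (Eventually.of_forall fun z => hM _)
  rw [← integral_add_compl (t2 k n) h6, t3 _ (image_mono inter_subset_left), integral_smul_measure,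
    ENNReal.toReal_natCast, smul_eq_mul, add_div, mul_div_assoc, Real.dist_eq]
  rw [Real.dist_eq, sub_zero, abs_lt] at h5
  change _ * I - _ ≤ _ ∧ _ ≤ _ * I + _ at h4
  have h7 : ε = (2 * q + 2) * (ε / (2 * q + 2)) := by field_simp
  have h8 : (0 : ℝ) ≤ q := Nat.cast_nonneg q
  generalize ε / (2 * q + 2) = δ at *
  rw [abs_lt]
  constructor
  · nlinarith [mul_le_mul_of_nonneg_left h4.1 h8, mul_le_mul_of_nonneg_left k1.le h8]
  · nlinarith [mul_le_mul_of_nonneg_left h4.2 h8, mul_le_mul_of_nonneg_left k2.le h8]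

end Vale.Agent.P214T
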