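import Vale.Agent.P214T.Defs

/-! Row BND: the upper density bound on the image of a piece. -/

open MeasureTheory Set Filter Topology Metric
open scoped ENNReal NNReal

namespace Vale.Agent.P214T

open Vale.Agent.P214

theorem bnd (m : ℕ) (E : Type*) [NormedAddCommGroup E] [InnerProductSpace ℝ E]
    [FiniteDimensional ℝ E] [MeasurableSpace E] [BorelSpace E] : BND m E := by
  intro f K η s hf hη h
  obtain ⟨c, hc, h⟩ := h.lower hη
  have := AREA.haar_euc m
  refine ⟨(K : ℝ) ^ m * (c⁻¹ ^ m * ((μH[m] : Measure (F m)) (ball 0 1)).toReal),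
    fun a ha r hr => ?_⟩
  have h1 : f '' s ∩ closedBall (f a) r ⊆ f '' closedBall a (c⁻¹ * r) := by
    rintro _ ⟨⟨b, hb, rfl⟩, k⟩
    refine ⟨b, ?_, rfl⟩
    rw [mem_closedBall, dist_eq_norm] at k ⊢
    rw [le_inv_mul_iff₀ hc]
    exact (h b hb a ha).trans k
  refine (measure_mono h1).trans ((hf.hausdorffMeasure_image_le (Nat.cast_nonneg m) _).trans_eq ?_)
  rw [Measure.addHaar_closedBall _ _ (by positivity), finrank_euclideanSpace_fin,
    ENNReal.rpow_natCast, ← ENNReal.ofReal_toReal (measure_ball_lt_top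
      (μ := (μH[m] : Measure (F m))) (x := 0) (r := 1)).ne, ← ENNReal.ofReal_mul (by positivity),
    ← ENNReal.ofReal_coe_nnreal, ← ENNReal.ofReal_pow K.coe_nonneg,
    ← ENNReal.ofReal_mul (by positivity), ENNReal.toReal_ofReal ENNReal.toReal_nonneg]
  congr 1
  ring

end Vale.Agent.P214T
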