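import Vale.Agent.P214T.Defs

/-! The good points are covered by countably many pieces. -/

open MeasureTheory Set Filter Topology Metric
open scoped ENNReal NNReal

namespace Vale.Agent.P214T

variable (m : ℕ) (E : Type*) [NormedAddCommGroup E] [InnerProductSpace ℝ E]
  [FiniteDimensional ℝ E] [MeasurableSpace E] [BorelSpace E]

variable {m E} in
theorem cov94_loc (f : F m → E) {η : ℝ} (hη : 0 < η) (A : F m →L[ℝ] E)
    (hA : Function.Injective A) : ∃ d > (0 : ℝ), ∃ s : ℕ → Set (F m), (∀ n, Pc f η (s n)) ∧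
      {x | DifferentiableAt ℝ f x ∧ fderiv ℝ f x ∈ ball A d} ⊆ ⋃ n, s n := by
  have : ProperSpace E := FiniteDimensional.proper_real E
  obtain ⟨K, K0, hK⟩ := (A : F m →ₗ[ℝ] E).exists_antilipschitzWith (LinearMap.ker_eq_bot.2 hA)
  obtain ⟨c, c0, hc⟩ : ∃ c > (0 : ℝ), ∀ v, 2 * c * ‖v‖ ≤ ‖A v‖ := by
    have K1 : (0 : ℝ) < K := K0
    refine ⟨1 / (2 * K), by positivity, fun v => ?_⟩
    rw [show 2 * (1 / (2 * (K : ℝ))) * ‖v‖ = ‖v‖ / K by field_simp, div_le_iff₀' K1]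
    exact hK.le_mul_norm (map_zero _) v
  obtain ⟨d, d0, d1, d2⟩ : ∃ d : ℝ≥0, 0 < d ∧ (d : ℝ) ≤ c ∧ 3 * (d : ℝ) ≤ η * c :=
    ⟨⟨min c (η * c / 3), by positivity⟩, show 0 < min c (η * c / 3) by positivity,
      min_le_left _ _, show 3 * min c (η * c / 3) ≤ _ by linarith [min_le_right c (η * c / 3)]⟩
  set S := {x | DifferentiableAt ℝ f x ∧ fderiv ℝ f x ∈ ball A d}
  have hS : MeasurableSet S := (measurableSet_of_differentiableAt ℝ f).inter
    (measurable_fderiv ℝ f measurableSet_ball)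
  obtain ⟨t, B, -, t1, t2, t3, t4⟩ := exists_partition_approximatesLinearOn_of_hasFDerivWithinAt
    f S (fderiv ℝ f) (fun x hx => hx.1.hasFDerivAt.hasFDerivWithinAt) (fun _ => d) fun _ => d0.ne'
  have near : ∀ x ∈ S, ∀ v, ‖fderiv ℝ f x v - A v‖ ≤ d * ‖v‖ := fun x hx v =>
    (fderiv ℝ f x - A).le_of_opNorm_le (mem_ball_iff_norm.1 hx.2).le v
  have low : ∀ x ∈ S, ∀ v, c * ‖v‖ ≤ ‖fderiv ℝ f x v‖ := fun x hx v => by
    have h1 := norm_sub_norm_le (A v) (fderiv ℝ f x v)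
    rw [norm_sub_rev] at h1
    linarith [near x hx v, hc v, mul_le_mul_of_nonneg_right d1 (norm_nonneg v)]
  refine ⟨d, d0, fun n => S ∩ t n, fun n => ⟨hS.inter (t1 n), c, c0, fun x hx =>
    ⟨hx.1.1, low x hx.1, fun a ha b hb => ?_⟩⟩, fun x hx => ?_⟩
  · obtain ⟨y, hy, e⟩ := t4 ⟨x, hx.1⟩ n
    have h1 := t3 n a ha b hb
    rw [e] at h1
    have h2 : f a - f b - fderiv ℝ f x (a - b) = (f a - f b - fderiv ℝ f y (a - b)) +
        (fderiv ℝ f y (a - b) - A (a - b)) - (fderiv ℝ f x (a - b) - A (a - b)) := by abel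
    rw [h2]
    refine (norm_sub_le _ _).trans ((add_le_add_left (norm_add_le _ _) _).trans ?_)
    linarith [near y hy (a - b), near x hx.1 (a - b), mul_le_mul_of_nonneg_left
      (low x hx.1 (a - b)) hη.le, mul_le_mul_of_nonneg_right d2 (norm_nonneg (a - b))]
  · obtain ⟨n, hn⟩ := mem_iUnion.1 (t2 hx)
    exact mem_iUnion.2 ⟨n, hx, hn⟩

theorem cov94 : COV m E := by
  intro f η hη
  have : ProperSpace E := FiniteDimensional.proper_real E
  choose! d hd s hs hc using cov94_loc f hη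
  obtain ⟨T, T1, T2, T3⟩ := TopologicalSpace.countable_cover_nhdsWithin
    (s := {A : F m →L[ℝ] E | Function.Injective A}) (f := fun A => ball A (d A))
    fun A hA => mem_nhdsWithin_of_mem_nhds (ball_mem_nhds _ (hd A hA))
  have := T2.to_subtype
  obtain ⟨e, he⟩ := exists_surjective_nat (Option (T × ℕ))
  refine ⟨fun n => (e n).elim ∅ fun p => s p.1 p.2, fun n => ?_, fun x hx => ?_⟩
  · dsimp only
    rcases e n with _ | p
    · exact ⟨MeasurableSet.empty, 1, one_pos, fun _ h => h.elim⟩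
    · exact hs _ (T1 p.1.2) _
  · obtain ⟨A, hA, h⟩ := mem_iUnion₂.1 (T3 hx.2)
    obtain ⟨k, hk⟩ := mem_iUnion.1 (hc A (T1 hA) ⟨hx.1, h⟩)
    obtain ⟨n, hn⟩ := he (some (⟨A, hA⟩, k))
    exact mem_iUnion.2 ⟨n, by rw [hn]; exact hk⟩

end Vale.Agent.P214T
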