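import Vale.Agent.P214T.Stmt
import Vale.Agent.P214.AREA.Jac

/-! Rows for the existence of approximate tangent planes of rectifiable measures. -/

open MeasureTheory Set Filter Topology Metric
open scoped ENNReal NNReal

namespace Vale.Agent.P214T

open Vale.Agent.P214

/-- the parameter space -/
abbrev F (m : ℕ) := EuclideanSpace ℝ (Fin m)

section defs

variable {m : ℕ} {E : Type*} [NormedAddCommGroup E] [InnerProductSpace ℝ E]

/-- differentiable with injective derivative -/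
def Good (f : F m → E) (x : F m) : Prop :=
  DifferentiableAt ℝ f x ∧ Function.Injective (fderiv ℝ f x)

/-- a piece on which `f` is close to each of its derivatives -/
def Pc (f : F m → E) (η : ℝ) (s : Set (F m)) : Prop :=
  MeasurableSet s ∧ ∃ c : ℝ, 0 < c ∧ ∀ x ∈ s, DifferentiableAt ℝ f x ∧
    (∀ v, c * ‖v‖ ≤ ‖fderiv ℝ f x v‖) ∧
    ∀ a ∈ s, ∀ b ∈ s, ‖f a - f b - fderiv ℝ f x (a - b)‖ ≤ η * ‖fderiv ℝ f x (a - b)‖

/-- the range of a linear map -/
def rg (L : F m →L[ℝ] E) : Submodule ℝ E := LinearMap.range (L : F m →ₗ[ℝ] E)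

/-- density point -/
def Dp (s : Set (F m)) (a : F m) : Prop :=
  Tendsto (fun r : ℝ => (μH[m] : Measure (F m)) (s ∩ closedBall a r) /
    (μH[m] : Measure (F m)) (closedBall a r)) (𝓝[>] 0) (𝓝 1)

lemma Pc.mono {f : F m → E} {η : ℝ} {s t : Set (F m)} (h : Pc f η s) (ht : MeasurableSet t)
    (hts : t ⊆ s) : Pc f η t := by
  obtain ⟨-, c, hc, h⟩ := h
  exact ⟨ht, c, hc, fun x hx => ⟨(h x (hts hx)).1, (h x (hts hx)).2.1,
    fun a ha b hb => (h x (hts hx)).2.2 a (hts ha) b (hts hb)⟩⟩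

lemma Pc.lower {f : F m → E} {η : ℝ} {s : Set (F m)} (h : Pc f η s) (hη : η < 1) :
    ∃ c : ℝ, 0 < c ∧ ∀ a ∈ s, ∀ b ∈ s, c * ‖a - b‖ ≤ ‖f a - f b‖ := by
  obtain ⟨-, c, hc, h⟩ := h
  refine ⟨(1 - η) * c, mul_pos (by linarith) hc, fun a ha b hb => ?_⟩
  have h1 := (h a ha).2.1 (a - b)
  have h2 := (h a ha).2.2 a ha b hb
  have h3 := norm_sub_norm_le (fderiv ℝ f a (a - b)) (f a - f b)
  rw [norm_sub_rev] at h2
  have h4 := mul_le_mul_of_nonneg_left h1 (sub_pos.2 hη).le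
  nlinarith

lemma Pc.injOn {f : F m → E} {η : ℝ} {s : Set (F m)} (h : Pc f η s) (hη : η < 1) :
    InjOn f s := by
  obtain ⟨c, hc, h⟩ := h.lower hη
  intro a ha b hb hab
  have h1 := h a ha b hb
  rw [hab, sub_self, norm_zero] at h1
  have h2 : ‖a - b‖ ≤ 0 := by
    by_contra h3
    exact absurd h1 (not_le.2 (mul_pos hc (not_le.1 h3)))
  exact sub_eq_zero.1 (norm_le_zero_iff.1 h2)

lemma Pc.good {f : F m → E} {η : ℝ} {s : Set (F m)} (h : Pc f η s) {x : F m} (hx : x ∈ s) :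
    Good f x := by
  obtain ⟨-, c, hc, h⟩ := h
  refine ⟨(h x hx).1, (injective_iff_map_eq_zero _).2 fun v hv => ?_⟩
  have h1 := (h x hx).2.1 v
  rw [hv, norm_zero] at h1
  have h2 : ‖v‖ ≤ 0 := by
    by_contra h3
    exact absurd h1 (not_le.2 (mul_pos hc (not_le.1 h3)))
  exact norm_le_zero_iff.1 h2

end defs

/-- comparison of the Hausdorff measures of two images -/
lemma img {X Y Z : Type*} [MetricSpace Y] [MetricSpace Z] [MeasurableSpace Y] [BorelSpace Y]
    [MeasurableSpace Z] [BorelSpace Z] [Nonempty X] {f : X → Y} {L : X → Z} {t : Set X} {K : ℝ≥0}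
    (h : ∀ a ∈ t, ∀ b ∈ t, dist (f a) (f b) ≤ K * dist (L a) (L b)) {d : ℝ} (hd : 0 ≤ d) :
    μH[d] (f '' t) ≤ (K : ℝ≥0∞) ^ d * μH[d] (L '' t) := by
  have h1 : LipschitzOnWith K (f ∘ Function.invFunOn L t) (L '' t) := by
    refine LipschitzOnWith.of_dist_le_mul fun y hy z hz => ?_
    have hy' : ∃ a ∈ t, L a = y := hy
    have hz' : ∃ a ∈ t, L a = z := hz
    have := h _ (Function.invFunOn_mem hy') _ (Function.invFunOn_mem hz')
    rwa [Function.invFunOn_eq hy', Function.invFunOn_eq hz'] at this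
  refine le_trans (measure_mono ?_) (h1.hausdorffMeasure_image_le hd)
  rintro _ ⟨a, ha, rfl⟩
  have hy' : ∃ b ∈ t, L b = L a := ⟨a, ha, rfl⟩
  refine ⟨L a, ⟨a, ha, rfl⟩, ?_⟩
  have := h _ (Function.invFunOn_mem hy') _ ha
  rw [Function.invFunOn_eq hy', dist_self, mul_zero] at this
  exact dist_le_zero.1 this

variable (m : ℕ) (E : Type*) [NormedAddCommGroup E] [InnerProductSpace ℝ E]
  [FiniteDimensional ℝ E] [MeasurableSpace E] [BorelSpace E]

/-- the image of the bad points is null -/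
def SARD : Prop := ∀ (f : F m → E) (K : ℝ≥0), LipschitzWith K f →
  (μH[m] : Measure E) (f '' {x | ¬ Good f x}) = 0

/-- the good points are covered by countably many pieces -/
def COV : Prop := ∀ (f : F m → E) (η : ℝ), 0 < η →
  ∃ s : ℕ → Set (F m), (∀ n, Pc f η (s n)) ∧ {x | Good f x} ⊆ ⋃ n, s n

/-- measurability of the projection on the image plane -/
def PRJ : Prop := ∀ (f : F m → E) (s : Set (F m)), Continuous f → Pc f (1 / 2) s →
  ∃ P : E → E →L[ℝ] E, StronglyMeasurable P ∧ ∀ a ∈ s, P (f a) = proj (rg (fderiv ℝ f a))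

/-- uniqueness of the tangent plane -/
def UNIQ : Prop := ∀ (μ : Measure E) (x : E) (T T' : Submodule ℝ E),
  IsTangent m μ x T → IsTangent m μ x T' → T = T'

/-- the Jacobian of an injective linear map -/
def JAC : Prop := ∀ L : F m →L[ℝ] E, Function.Injective L → Module.finrank ℝ (rg L) = m ∧
  ∃ J : ℝ≥0, (∀ B : Set (F m), (μH[m] : Measure E) (L '' B) = J * (μH[m] : Measure (F m)) B) ∧
    ∀ g : E → ℝ, Continuous g →
      ∫ y in (rg L : Set E), g y ∂μH[m] = J * ∫ v, g (L v) ∂(μH[m] : Measure (F m))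

/-- blow-up in the parameter space -/
def BLA : Prop := ∀ (f : F m → E) (η : ℝ) (s : Set (F m)) (a : F m), Continuous f → η < 1 →
  Pc f η s → a ∈ s → Dp s a → ∀ g : E → ℝ, Continuous g → HasCompactSupport g →
    Tendsto (fun r : ℝ => (∫ b in s, g (r⁻¹ • (f b - f a)) ∂(μH[m] : Measure (F m))) / r ^ m)
      (𝓝[>] 0) (𝓝 (∫ v, g (fderiv ℝ f a v) ∂(μH[m] : Measure (F m))))

/-- the complement of `S` is negligible at almost every point of `S` -/
def DENS : Prop := ∀ (μ : Measure E) [IsFiniteMeasure μ] (S : Set E), MeasurableSet S →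
  ∀ᵐ y ∂μ, y ∈ S → ∀ C : ℝ, (∀ r > 0, μ (S ∩ closedBall y r) ≤ ENNReal.ofReal (C * r ^ m)) →
    ∀ g : E → ℝ, Continuous g → HasCompactSupport g →
      Tendsto (fun r : ℝ => (∫ z in Sᶜ, g (r⁻¹ • (z - y)) ∂μ) / r ^ m) (𝓝[>] 0) (𝓝 0)

/-- upper density bound on the image of a piece -/
def BND : Prop := ∀ (f : F m → E) (K : ℝ≥0) (η : ℝ) (s : Set (F m)), LipschitzWith K f → η < 1 →
  Pc f η s → ∃ C : ℝ, ∀ a ∈ s, ∀ r > 0,
    (μH[m] : Measure E) (f '' s ∩ closedBall (f a) r) ≤ ENNReal.ofReal (C * r ^ m)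

/-- two-sided blow-up bound on the image of a piece -/
def BLB : Prop := ∀ (f : F m → E) (η : ℝ) (s : Set (F m)) (a : F m), Continuous f → 0 < η →
  η < 1 → Pc f η s → a ∈ s → Dp s a → ∀ g : E → ℝ, Continuous g → HasCompactSupport g →
    (∀ y, 0 ≤ g y) → ∀ ε > 0, ∀ᶠ r : ℝ in 𝓝[>] 0,
      (1 - η) ^ m * (∫ y in (rg (fderiv ℝ f a) : Set E), g y ∂μH[m]) - ε ≤
        (∫ z in f '' s, g (r⁻¹ • (z - f a)) ∂μH[m]) / r ^ m ∧
      (∫ z in f '' s, g (r⁻¹ • (z - f a)) ∂μH[m]) / r ^ m ≤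
        (1 + η) ^ m * (∫ y in (rg (fderiv ℝ f a) : Set E), g y ∂μH[m]) + ε

/-- reduction of the blow-up limit to nonnegative test functions -/
def PM : Prop := ∀ (μ : Measure E) [IsFiniteMeasure μ] (x : E) (q : ℕ) (T : Submodule ℝ E),
  Module.finrank ℝ T = m →
  (∀ g : E → ℝ, Continuous g → HasCompactSupport g → (∀ y, 0 ≤ g y) →
    Tendsto (fun r : ℝ => (∫ y, g (r⁻¹ • (y - x)) ∂μ) / r ^ m) (𝓝[>] 0)
      (𝓝 (q * ∫ y in (T : Set E), g y ∂μH[m]))) → IsApproxTangent m μ x q T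

/-- tangent planes on the image of a piece -/
def BLOW : Prop := ∀ (μ : Measure E) [IsFiniteMeasure μ] (f : F m → E) (K : ℝ≥0) (s : Set (F m))
  (q : ℕ), LipschitzWith K f → Pc f (1 / 2) s →
  μ.restrict (f '' s) = (q : ℝ≥0∞) • (μH[m] : Measure E).restrict (f '' s) →
  ∀ᵐ y ∂μ, ∀ a ∈ s, f a = y → IsApproxTangent m μ y q (rg (fderiv ℝ f a))

/-- locality of tangent planes -/
def LOC : Prop := ∀ (μ : Measure E) (W : Set E) (x : E) (q : ℕ) (T : Submodule ℝ E),
  IsOpen W → x ∈ W → IsApproxTangent m (μ.restrict W) x q T → IsApproxTangent m μ x q T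

/-- row: two-sided bound -/
def RowBLB : Prop := JAC m E → BLA m E → BLB m E

/-- row: tangent planes on a piece -/
def RowBLOW : Prop := COV m E → JAC m E → DENS m E → BND m E → BLB m E → PM m E → BLOW m E

end Vale.Agent.P214T
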