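import Vale.Agent.P214T.Defs

/-! The complement of a measurable set is negligible at almost every point of the set. -/

open MeasureTheory Set Filter Topology Metric
open scoped ENNReal NNReal

namespace Vale.Agent.P214T

theorem dens85_aux {a b c : ℝ} (hab : a ≤ b) (hb : 0 ≤ b) (h : 1 / 2 < a / b) (hc : a ≤ c) :
    b - a ≤ (1 - a / b) * (2 * c) := by
  have b0 : 0 < b := by
    refine hb.lt_of_ne fun k => ?_
    rw [← k, div_zero] at h
    norm_num at h
  have h1 : b ≤ 2 * c := by
    rw [lt_div_iff₀ b0] at h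
    linarith
  have h2 : 0 ≤ 1 - a / b := sub_nonneg.2 ((div_le_one b0).2 hab)
  calc b - a = (1 - a / b) * b := by field_simp
    _ ≤ _ := mul_le_mul_of_nonneg_left h1 h2

theorem dens85 (m : ℕ) (E : Type*) [NormedAddCommGroup E] [InnerProductSpace ℝ E]
    [FiniteDimensional ℝ E] [MeasurableSpace E] [BorelSpace E] : DENS m E := by
  intro μ _ S hS
  refine ((ae_restrict_iff' hS).1 (Besicovitch.ae_tendsto_measure_inter_div μ S)).mono
    fun y hy hyS C hC g hg hc => ?_
  obtain ⟨M, hM⟩ := hg.bounded_above_of_compact_support hc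
  obtain ⟨R, hR, hs⟩ := hc.isCompact.isBounded.subset_closedBall_lt 0 (0 : E)
  have M0 : 0 ≤ M := (norm_nonneg _).trans (hM 0)
  have t0 : Tendsto (fun r : ℝ => R * r) (𝓝[>] 0) (𝓝[>] 0) := by
    refine tendsto_nhdsWithin_iff.2 ⟨?_, eventually_mem_nhdsWithin.mono fun r hr => mul_pos hR hr⟩
    have k : Tendsto (fun r : ℝ => R * r) (𝓝 0) (𝓝 (R * 0)) :=
      (continuous_const.mul continuous_id).tendsto 0
    rw [mul_zero] at k
    exact k.mono_left nhdsWithin_le_nhds
  have t1 : Tendsto (fun r : ℝ => μ.real (S ∩ closedBall y (R * r)) / μ.real (closedBall y (R * r)))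
      (𝓝[>] 0) (𝓝 1) := by
    have k := ((ENNReal.tendsto_toReal ENNReal.one_ne_top).comp (hy hyS)).comp t0
    rw [ENNReal.toReal_one] at k
    exact k.congr fun r => ENNReal.toReal_div _ _
  have t2 : Tendsto (fun r : ℝ => M * ((1 - μ.real (S ∩ closedBall y (R * r)) /
      μ.real (closedBall y (R * r))) * (2 * (|C| * R ^ m)))) (𝓝[>] 0)
      (𝓝 (M * ((1 - 1) * (2 * (|C| * R ^ m))))) :=
    ((t1.const_sub 1).mul_const _).const_mul M
  rw [sub_self, zero_mul, mul_zero] at t2
  refine squeeze_zero_norm' ?_ t2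
  filter_upwards [self_mem_nhdsWithin, t1.eventually (lt_mem_nhds (by norm_num : (1 : ℝ) / 2 < 1))]
    with r (hr : 0 < r) h1
  have rm : 0 < r ^ m := pow_pos hr m
  have hB : MeasurableSet (closedBall y (R * r)) := measurableSet_closedBall
  have e1 : ∫ z in Sᶜ, g (r⁻¹ • (z - y)) ∂μ =
      ∫ z in closedBall y (R * r) \ S, g (r⁻¹ • (z - y)) ∂μ := by
    refine setIntegral_eq_of_subset_of_forall_sdiff_eq_zero hS.compl (fun z hz => hz.2)
      fun z hz => image_eq_zero_of_notMem_tsupport fun k => hz.2 ⟨?_, hz.1⟩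
    have k1 := mem_closedBall_zero_iff.1 (hs k)
    rw [norm_smul, norm_inv, Real.norm_of_nonneg hr.le, inv_mul_le_iff₀ hr, mul_comm] at k1
    exact mem_closedBall_iff_norm.2 k1
  have e2 : ‖∫ z in closedBall y (R * r) \ S, g (r⁻¹ • (z - y)) ∂μ‖ ≤
      M * μ.real (closedBall y (R * r) \ S) :=
    norm_setIntegral_le_of_norm_le_const (measure_lt_top _ _) fun z _ => hM _
  have e3 : μ.real (closedBall y (R * r) \ S) =
      μ.real (closedBall y (R * r)) - μ.real (S ∩ closedBall y (R * r)) := by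
    rw [← measureReal_inter_add_sdiff (s := closedBall y (R * r)) hS, inter_comm,
      add_sub_cancel_left]
  have e4 : μ.real (S ∩ closedBall y (R * r)) ≤ |C| * R ^ m * r ^ m := by
    refine ENNReal.toReal_le_of_le_ofReal (by positivity) ((hC _ (mul_pos hR hr)).trans
      (ENNReal.ofReal_le_ofReal ?_))
    rw [mul_assoc, ← mul_pow]
    exact mul_le_mul_of_nonneg_right (le_abs_self C) (by positivity)
  have e5 := dens85_aux (measureReal_mono inter_subset_right) measureReal_nonneg h1 e4
  rw [norm_div, Real.norm_of_nonneg rm.le, div_le_iff₀ rm, e1]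
  refine e2.trans ?_
  rw [e3, mul_assoc]
  refine mul_le_mul_of_nonneg_left (e5.trans_eq ?_) M0
  ring

end Vale.Agent.P214T
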