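import Vale.Agent.P214T.Top99

/-! Existence and uniqueness of the tangent plane almost everywhere. -/

open MeasureTheory Set Filter Topology Metric
open scoped ENNReal NNReal

namespace Vale.Agent.P214T

open Vale.Agent.P214

variable {m : ℕ} {E : Type*} [NormedAddCommGroup E] [InnerProductSpace ℝ E]
  [FiniteDimensional ℝ E] [MeasurableSpace E] [BorelSpace E] {U : Set E}

theorem exists_unique_tangent (hU : IsOpen U) (V : Varifold m U) :
    ∀ᵐ x ∂V.weight, ∃! T, IsTangent m V.weight x T := by
  have hac : V.weight ≪ (μH[m] : Measure E).restrict V.carrier :=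
    withDensity_absolutelyContinuous _ _
  have h1 : ∀ᵐ x ∂V.weight, x ∈ V.carrier :=
    hac.ae_le (ae_restrict_mem₀ V.carrier_meas)
  filter_upwards [h1, (Top99.main hU V).2] with x hx h
  have h2 : IsTangent m V.weight x (V.tangent x) :=
    ⟨h.1, V.mult x, by exact_mod_cast V.mult_pos x hx, h.2⟩
  exact ⟨_, h2, fun T hT => uniq81 m E _ _ _ _ hT h2⟩

end Vale.Agent.P214T
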