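import Vale.Agent.P214T.Defs

/-! The Jacobian of an injective linear map. -/

open MeasureTheory Set Filter Topology Metric
open scoped ENNReal NNReal

namespace Vale.Agent.P214T

open Vale.Agent.P214

theorem jac48 (m : ℕ) (E : Type*) [NormedAddCommGroup E] [InnerProductSpace ℝ E]
    [FiniteDimensional ℝ E] [MeasurableSpace E] [BorelSpace E] : JAC m E := by
  intro L hL
  have hr : Module.finrank ℝ (rg L) = m := by
    rw [rg, LinearMap.finrank_range_of_inj (f := (L : F m →ₗ[ℝ] E)) hL]
    simp
  refine ⟨hr, ?_⟩
  obtain ⟨ι, h1, h2, -⟩ := AREA.exists_param hr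
  have hH := AREA.haar_euc m
  let M : F m →ₗ[ℝ] F m :=
    ((ContinuousLinearMap.adjoint ι.toContinuousLinearMap).comp L).toLinearMap
  have hM : ∀ v, ι (M v) = L v := fun v => by
    have h3 : L v ∈ range ι := by
      rw [h1]
      exact ⟨v, rfl⟩
    obtain ⟨p, hp⟩ := h3
    show ι (ContinuousLinearMap.adjoint ι.toContinuousLinearMap (L v)) = L v
    rw [← hp, h2]
  have hB : ∀ B : Set (F m), (μH[m] : Measure E) (L '' B) =
      (Real.nnabs (LinearMap.det M) : ℝ≥0) * (μH[m] : Measure (F m)) B := fun B => by
    have e : L '' B = ι '' (M '' B) := by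
      rw [image_image]
      exact image_congr fun v _ => (hM v).symm
    rw [e, ι.isometry.hausdorffMeasure_image (Or.inl (Nat.cast_nonneg m)),
      Measure.addHaar_image_linearMap, ← Real.coe_nnabs, ENNReal.ofReal_coe_nnreal]
  refine ⟨Real.nnabs (LinearMap.det M), hB, fun g hg => ?_⟩
  have hm : (μH[m] : Measure E).restrict (rg L : Set E) =
      (Real.nnabs (LinearMap.det M) : ℝ≥0) • Measure.map L (μH[m] : Measure (F m)) := by
    ext B hB'
    have e : B ∩ (rg L : Set E) = L '' (L ⁻¹' B) := by
      rw [image_preimage_eq_inter_range]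
      rfl
    rw [Measure.restrict_apply hB', e, hB, Measure.smul_apply,
      Measure.map_apply L.continuous.measurable hB']
    rfl
  rw [hm, integral_smul_nnreal_measure,
    integral_map L.continuous.measurable.aemeasurable hg.aestronglyMeasurable]
  rfl

end Vale.Agent.P214T
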