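import Vale.Agent.P214T.Defs

/-! Row LOC: tangent planes are local. -/

open MeasureTheory Set Filter Topology Metric
open scoped ENNReal NNReal

namespace Vale.Agent.P214T

open Vale.Agent.P214

variable (m : ℕ) (E : Type*) [NormedAddCommGroup E] [InnerProductSpace ℝ E]
  [FiniteDimensional ℝ E] [MeasurableSpace E] [BorelSpace E]

omit [FiniteDimensional ℝ E] in
theorem loc99 : LOC m E := by
  intro μ W x q T hW hx h
  refine ⟨h.1, fun f hf hc => (h.2 f hf hc).congr' ?_⟩
  obtain ⟨R, hR, h1⟩ := hc.isCompact.isBounded.subset_ball_lt 0 0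
  obtain ⟨δ, hδ, h2⟩ := Metric.isOpen_iff.1 hW x hx
  filter_upwards [Ioo_mem_nhdsGT (div_pos hδ hR)] with r hr
  rw [setIntegral_eq_integral_of_forall_compl_eq_zero]
  intro y hy
  by_contra k
  have h3 := h1 (subset_tsupport f k)
  rw [mem_ball_zero_iff, norm_smul, norm_inv, Real.norm_of_nonneg hr.1.le,
    inv_mul_lt_iff₀ hr.1] at h3
  refine hy (h2 ?_)
  rw [mem_ball_iff_norm]
  exact h3.trans ((lt_div_iff₀ hR).1 hr.2)

end Vale.Agent.P214T
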