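import Vale.Agent.P214T.Defs

/-! Reduction of the blow-up limit to nonnegative test functions. -/

open MeasureTheory Set Filter Topology Metric
open scoped ENNReal NNReal

set_option linter.unusedSectionVars false

namespace Vale.Agent.P214T.Pm76

open Vale.Agent.P214

variable {E : Type*} [NormedAddCommGroup E] [InnerProductSpace ℝ E]
  [FiniteDimensional ℝ E] [MeasurableSpace E] [BorelSpace E]

lemma int_fin (μ : Measure E) [IsFiniteMeasure μ] (x : E) (r : ℝ) {g : E → ℝ}
    (hg : Continuous g) (hc : HasCompactSupport g) :
    Integrable (fun y => g (r⁻¹ • (y - x))) μ := by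
  obtain ⟨C, hC⟩ := hg.bounded_above_of_compact_support hc
  have h1 : Continuous fun y : E => g (r⁻¹ • (y - x)) :=
    hg.comp ((continuous_id.sub continuous_const).const_smul _)
  exact Integrable.of_bound h1.aestronglyMeasurable C (Eventually.of_forall fun y => hC _)

lemma int_pl {m : ℕ} {T : Submodule ℝ E} (hT : Module.finrank ℝ T = m) {g : E → ℝ}
    (hg : Continuous g) (hc : HasCompactSupport g) :
    Integrable g ((μH[m] : Measure E).restrict (T : Set E)) := by
  obtain ⟨ι, hr, -, -⟩ := AREA.exists_param hT
  have hH := AREA.haar_euc m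
  have h1 := ι.isometry.map_hausdorffMeasure (d := (m : ℝ)) (Or.inl (Nat.cast_nonneg m))
  rw [← hr, ← h1, integrable_map_measure hg.aestronglyMeasurable
    ι.continuous.measurable.aemeasurable]
  exact (hg.comp ι.continuous).integrable_of_hasCompactSupport
    (hc.comp_isClosedEmbedding ι.isometry.isClosedEmbedding)

lemma supp_max {g : E → ℝ} (hc : HasCompactSupport g) :
    HasCompactSupport fun y => max (g y) 0 :=
  hc.comp_left (g := fun t : ℝ => max t 0) (max_self 0)

end Vale.Agent.P214T.Pm76

namespace Vale.Agent.P214T

open Vale.Agent.P214 Pm76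

/-- reduction of the blow-up limit to nonnegative test functions -/
theorem pm76 (m : ℕ) (E : Type*) [NormedAddCommGroup E] [InnerProductSpace ℝ E]
    [FiniteDimensional ℝ E] [MeasurableSpace E] [BorelSpace E] : PM m E := by
  intro μ _ x q T hT h
  refine ⟨hT, fun g hg hc => ?_⟩
  have hp : Continuous fun y => max (g y) 0 := hg.max continuous_const
  have hn : Continuous fun y => max (-g y) 0 := hg.neg.max continuous_const
  have cp : HasCompactSupport fun y => max (g y) 0 := supp_max hc
  have cn : HasCompactSupport fun y => max (-g y) 0 := supp_max (g := fun y => -g y) hc.neg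
  have e : ∀ y, g y = max (g y) 0 - max (-g y) 0 := fun y => (max_zero_sub_max_neg_zero_eq_self _).symm
  have h1 := (h _ hp cp fun y => le_max_right _ _).sub (h _ hn cn fun y => le_max_right _ _)
  have e1 : (∫ y in (T : Set E), g y ∂μH[m]) = (∫ y in (T : Set E), max (g y) 0 ∂μH[m]) -
      ∫ y in (T : Set E), max (-g y) 0 ∂μH[m] := by
    rw [← integral_sub (int_pl hT hp cp) (int_pl hT hn cn)]
    exact integral_congr_ae (Eventually.of_forall fun y => e y)
  rw [e1, mul_sub]
  refine h1.congr fun r => ?_
  rw [← sub_div, ← integral_sub (int_fin μ x r hp cp) (int_fin μ x r hn cn)]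
  exact congrArg (· / r ^ m) (integral_congr_ae (Eventually.of_forall fun y => (e _).symm))

end Vale.Agent.P214T
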