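import Vale.Agent.P214T.Defs

/-! Row PRJ: the projection on the image plane is measurable. -/

open MeasureTheory Set Filter Topology Metric
open scoped ENNReal NNReal

namespace Vale.Agent.P214T

open Vale.Agent.P214

namespace Prj97

variable {m : ℕ} {E : Type*} [NormedAddCommGroup E] [InnerProductSpace ℝ E]
  [FiniteDimensional ℝ E]

/-- a formula for the projection -/
noncomputable def pf (L : F m →L[ℝ] E) : E →L[ℝ] E :=
  L ∘L Ring.inverse (L.adjoint ∘L L) ∘L L.adjoint

lemma unit {L : F m →L[ℝ] E} (h : Function.Injective L) : IsUnit (L.adjoint ∘L L) := by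
  have k : Function.Injective (L.adjoint ∘L L) := (injective_iff_map_eq_zero _).2 fun v hv => by
    have : inner ℝ (L v) (L v) = 0 := by
      rw [← L.adjoint_inner_left]
      exact (congrArg (inner ℝ · v) hv).trans (inner_zero_left _)
    exact h ((inner_self_eq_zero.1 this).trans (map_zero L).symm)
  exact ContinuousLinearMap.isUnit_iff_bijective.2
    ⟨k, (LinearMap.injective_iff_surjective (f := (L.adjoint ∘L L).toLinearMap)).1 k⟩

lemma eq {L : F m →L[ℝ] E} (h : Function.Injective L) : pf L = proj (rg L) := by
  ext u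
  refine (Submodule.eq_starProjection_of_mem_of_inner_eq_zero (K := rg L) (v := pf L u)
    ⟨_, rfl⟩ ?_).symm
  rintro _ ⟨z, rfl⟩
  have k := DFunLike.congr_fun (Ring.mul_inverse_cancel _ (unit h)) (L.adjoint u)
  refine (L.adjoint_inner_left z _).symm.trans ?_
  rw [map_sub]
  exact (congrArg (fun y => inner ℝ (L.adjoint u - y) z) k).trans (by simp)

lemma cont {L : F m →L[ℝ] E} (h : Function.Injective L) : ContinuousAt pf L := by
  have a : Continuous fun L : F m →L[ℝ] E => L.adjoint := ContinuousLinearMap.adjoint.continuous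
  have k : ContinuousAt (fun L : F m →L[ℝ] E => Ring.inverse (L.adjoint ∘L L)) L :=
    (NormedRing.inverse_continuousAt (unit h).unit).comp_of_eq
      (a.clm_comp continuous_id).continuousAt rfl
  exact continuousAt_id.clm_comp (k.clm_comp a.continuousAt)

end Prj97

theorem prj97 (m : ℕ) (E : Type*) [NormedAddCommGroup E] [InnerProductSpace ℝ E]
    [FiniteDimensional ℝ E] [MeasurableSpace E] [BorelSpace E] : PRJ m E := by
  intro f s hf h
  have e := hf.continuousOn.measurableEmbedding h.1 (h.injOn one_half_lt_one)
  have c : Continuous fun L : {L : F m →L[ℝ] E | Function.Injective L} => Prj97.pf L.1 :=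
    continuous_iff_continuousAt.2 fun L =>
      (Prj97.cont L.2).comp continuous_subtype_val.continuousAt
  have k : Measurable fun a : s => Prj97.pf (fderiv ℝ f a) := c.measurable.comp
    (((measurable_fderiv ℝ f).comp measurable_subtype_coe).subtype_mk
      (h := fun a : s => (h.good a.2).2))
  obtain ⟨P, h1, h2⟩ := e.exists_stronglyMeasurable_extend k.stronglyMeasurable fun _ => ⟨0⟩
  exact ⟨P, h1, fun a ha => (congrFun h2 ⟨a, ha⟩).trans (Prj97.eq (h.good ha).2)⟩

end Vale.Agent.P214T
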