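import Vale.Agent.P214T.Defs

/-! The image of the points where a Lipschitz map is not an immersion is null. -/

open MeasureTheory Set Filter Topology Metric
open scoped ENNReal NNReal RealInnerProductSpace

namespace Vale.Agent.P214T

open Vale.Agent.P214

namespace Sard9

variable {m : ℕ} {E : Type*} [NormedAddCommGroup E] [InnerProductSpace ℝ E]

lemma exB {A : F m →L[ℝ] E} (hA : ¬ Function.Injective A) {η : ℝ} (h0 : 0 < η) (h1 : η ≤ 1) :
    ∃ B : F m →ₗ[ℝ] F m, LinearMap.det B = η ∧ ∀ v, A (B v) = A v ∧ η * ‖v‖ ≤ ‖B v‖ := by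
  rw [injective_iff_map_eq_zero] at hA
  push Not at hA
  obtain ⟨w, w1, w2⟩ := hA
  obtain ⟨e, e1, e2⟩ : ∃ e : F m, A e = 0 ∧ ‖e‖ = 1 :=
    ⟨‖w‖⁻¹ • w, by rw [map_smul, w1, smul_zero], norm_smul_inv_norm w2⟩
  refine ⟨1 + LinearMap.toSpanSingleton ℝ _ ((η - 1) • e) ∘ₗ (innerSL ℝ e).toLinearMap, ?_,
    fun v => ?_⟩
  · rw [AREA.det_one_add_comp, LinearMap.det_ring]
    simp [inner_smul_right, e2]
  · have k : (1 + LinearMap.toSpanSingleton ℝ _ ((η - 1) • e) ∘ₗ (innerSL ℝ e).toLinearMap :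
        F m →ₗ[ℝ] F m) v = v + (⟪e, v⟫ * (η - 1)) • e := by
      simp [mul_smul]
    rw [k]
    refine ⟨by rw [map_add, map_smul, e1, smul_zero, add_zero], ?_⟩
    have k1 : ⟪e, v⟫ ^ 2 ≤ ‖v‖ ^ 2 := by
      have := abs_real_inner_le_norm e v
      rw [e2, one_mul] at this
      exact sq_le_sq' (by linarith [neg_abs_le ⟪e, v⟫]) ((le_abs_self _).trans this)
    refine le_of_sq_le_sq ?_ (norm_nonneg _)
    rw [norm_add_sq_real, inner_smul_right, norm_smul, e2, real_inner_comm e v, mul_one,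
      Real.norm_eq_abs, sq_abs]
    have k2 : 0 ≤ (1 - η ^ 2) * (‖v‖ ^ 2 - ⟪e, v⟫ ^ 2) :=
      mul_nonneg (by nlinarith) (by linarith)
    nlinarith

variable [FiniteDimensional ℝ E] [MeasurableSpace E] [BorelSpace E]

lemma aux {f : F m → E} {K : ℝ≥0} (hf : LipschitzWith K f) {s : Set (F m)}
    (hs : ∀ x ∈ s, DifferentiableAt ℝ f x ∧ ¬ Function.Injective (fderiv ℝ f x)) {R : ℝ}
    (hR : s ⊆ closedBall 0 R) {η : ℝ≥0} (h0 : 0 < η) (h1 : η ≤ 1) :
    (μH[m] : Measure E) (f '' s) ≤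
      η * (((K + 1 : ℝ≥0) : ℝ≥0∞) ^ (m : ℝ) * (μH[m] : Measure (F m)) (closedBall 0 R)) := by
  rcases eq_empty_or_nonempty s with rfl | h's
  · simp only [measure_empty, zero_le, image_empty]
  have := AREA.haar_euc m
  obtain ⟨t, A, t1, t2, t3, t4, t5⟩ := exists_partition_approximatesLinearOn_of_hasFDerivWithinAt
    f s (fderiv ℝ f) (fun x hx => (hs x hx).1.hasFDerivAt.hasFDerivWithinAt) (fun _ => η)
    fun _ => h0.ne'
  have key : ∀ n, (μH[m] : Measure E) (f '' (s ∩ t n)) ≤ η * (((K + 1 : ℝ≥0) : ℝ≥0∞) ^ (m : ℝ) *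
      (μH[m] : Measure (F m)) (closedBall 0 R ∩ t n)) := fun n => by
    obtain ⟨y, y1, y2⟩ := t5 h's n
    obtain ⟨B, b1, b2⟩ := exB (A := A n) (y2 ▸ (hs y y1).2) (η := η) h0 h1
    have hA : ‖A n‖ ≤ K := y2 ▸ norm_fderiv_le_of_lipschitz ℝ hf
    refine (img (L := B) (K := K + 1) (fun a ha b hb => ?_) m.cast_nonneg).trans ?_
    · have k1 := t4 n a ha b hb
      have k2 := (A n).le_of_opNorm_le hA (B (a - b))
      have k3 := norm_add_le (f a - f b - A n (a - b)) (A n (a - b))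
      rw [(b2 _).1] at k2
      rw [sub_add_cancel] at k3
      rw [dist_eq_norm, dist_eq_norm, ← map_sub, NNReal.coe_add, NNReal.coe_one, add_mul, one_mul]
      linarith [(b2 (a - b)).2]
    · rw [Measure.addHaar_image_linearMap, b1, abs_of_nonneg η.coe_nonneg,
        ENNReal.ofReal_coe_nnreal, mul_left_comm]
      gcongr
  calc (μH[m] : Measure E) (f '' s) ≤ μH[m] (⋃ n, f '' (s ∩ t n)) := by
        rw [← image_iUnion, ← inter_iUnion]
        exact measure_mono (image_mono (subset_inter Subset.rfl t3))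
    _ ≤ ∑' n, μH[m] (f '' (s ∩ t n)) := measure_iUnion_le _
    _ ≤ _ := ENNReal.tsum_le_tsum key
    _ ≤ _ := by
        rw [ENNReal.tsum_mul_left, ENNReal.tsum_mul_left, ← measure_iUnion
          (pairwise_disjoint_mono t1 fun n => inter_subset_right)
          fun n => measurableSet_closedBall.inter (t2 n), ← inter_iUnion]
        gcongr
        exact inter_subset_left

end Sard9

/-- row SARD -/
theorem sard9 (m : ℕ) (E : Type*) [NormedAddCommGroup E] [InnerProductSpace ℝ E]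
    [FiniteDimensional ℝ E] [MeasurableSpace E] [BorelSpace E] : SARD m E := by
  intro f K hf
  have := AREA.haar_euc m
  have h1 : (μH[m] : Measure E) (f '' {x | ¬ DifferentiableAt ℝ f x}) = 0 := by
    refine nonpos_iff_eq_zero.1 ((hf.hausdorffMeasure_image_le m.cast_nonneg _).trans ?_)
    rw [show (μH[m] : Measure (F m)) {x | ¬ DifferentiableAt ℝ f x} = 0 from
      hf.ae_differentiableAt, mul_zero]
  have h2 : ∀ R : ℝ, (μH[m] : Measure E) (f '' ({x | DifferentiableAt ℝ f x ∧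
      ¬ Function.Injective (fderiv ℝ f x)} ∩ closedBall 0 R)) = 0 := fun R => by
    have c : ((K + 1 : ℝ≥0) : ℝ≥0∞) ^ (m : ℝ) * (μH[m] : Measure (F m)) (closedBall 0 R) ≠ ∞ :=
      ENNReal.mul_ne_top (ENNReal.rpow_ne_top_of_nonneg m.cast_nonneg ENNReal.coe_ne_top)
        measure_closedBall_lt_top.ne
    have B := ENNReal.Tendsto.mul_const (f := 𝓝 (0 : ℝ≥0)) (ENNReal.tendsto_coe.2 tendsto_id)
      (Or.inr c)
    rw [ENNReal.coe_zero, zero_mul] at B
    refine nonpos_iff_eq_zero.1 (ge_of_tendsto (B.mono_left (nhdsWithin_le_nhds (s := Ioi 0))) ?_)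
    filter_upwards [Ioc_mem_nhdsGT (zero_lt_one' ℝ≥0)] with η hη
    exact Sard9.aux hf (fun x hx => hx.1) inter_subset_right hη.1 hη.2
  refine measure_mono_null (t := f '' {x | ¬ DifferentiableAt ℝ f x} ∪ ⋃ n : ℕ, f '' ({x |
    DifferentiableAt ℝ f x ∧ ¬ Function.Injective (fderiv ℝ f x)} ∩ closedBall 0 n)) ?_
    (measure_union_null h1 (measure_iUnion_null fun n => h2 n))
  rintro _ ⟨x, hx, rfl⟩
  by_cases k : DifferentiableAt ℝ f x
  · obtain ⟨n, hn⟩ := exists_nat_ge ‖x‖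
    exact .inr (mem_iUnion.2 ⟨n, x, ⟨⟨k, fun c => hx ⟨k, c⟩⟩, mem_closedBall_zero_iff.2 hn⟩, rfl⟩)
  · exact .inl ⟨x, k, rfl⟩

end Vale.Agent.P214T
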