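import Vale.Agent.P214.Defs

/-! Integral varifolds given by a rectifiable set and a multiplicity only; the tangent plane is
defined from the weight. -/

open MeasureTheory Set Filter Topology Metric
open scoped ENNReal NNReal

namespace Vale.Agent.P214T

open Vale.Agent.P214

variable {E : Type*} [NormedAddCommGroup E] [InnerProductSpace ℝ E] [FiniteDimensional ℝ E]
  [MeasurableSpace E] [BorelSpace E]

/-- `T` is an approximate tangent `m`-plane of `μ` at `x`: the blow-ups of `μ` at `x` converge
to a positive multiple of `H^m` on `T`. -/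
def IsTangent (m : ℕ) (μ : Measure E) (x : E) (T : Submodule ℝ E) : Prop :=
  Module.finrank ℝ T = m ∧ ∃ c : ℝ, 0 < c ∧ ∀ g : E → ℝ, Continuous g → HasCompactSupport g →
    Tendsto (fun r : ℝ => (∫ y, g (r⁻¹ • (y - x)) ∂μ) / r ^ m) (𝓝[>] 0)
      (𝓝 (c * ∫ y in (T : Set E), g y ∂μH[m]))

/-- An integral `m`-varifold in `U`: a countably rectifiable set and a measurable, locally
integrable multiplicity with values in the positive integers. -/
structure Varifold (m : ℕ) (U : Set E) where
  /-- the rectifiable set -/
  carrier : Set E
  /-- the multiplicity -/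
  mult : E → ℕ
  carrier_subset : carrier ⊆ U
  carrier_meas : NullMeasurableSet carrier (μH[m] : Measure E)
  rectifiable : CountablyRectifiable m carrier
  mult_meas : AEMeasurable mult ((μH[m] : Measure E).restrict carrier)
  mult_pos : ∀ x ∈ carrier, 1 ≤ mult x
  locFinite : ∀ K ⊆ U, IsCompact K → weightOf m carrier mult K < ⊤

namespace Varifold

variable {m : ℕ} {U : Set E} (V : Varifold m U)

/-- the weight measure of the varifold -/
noncomputable def weight : Measure E := weightOf m V.carrier V.mult

/-- the approximate tangent plane at `x`, where there is one -/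
noncomputable def tangent (x : E) : Submodule ℝ E := Classical.epsilon (IsTangent m V.weight x)

/-- stationarity -/
def IsStationary : Prop :=
  ∀ X, IsTestField U X → ∫ x, divAlong (V.tangent x) X x ∂V.weight = 0

/-- the support of the weight in `U` -/
def spt : Set E := {x ∈ U | ∀ W ∈ 𝓝 x, 0 < V.weight W}

/-- `p` is a regular point: near `p` the varifold is an integer `q ≥ 1` times a smooth embedded
minimal submanifold. -/
def IsRegular (p : E) : Prop :=
  ∃ W S : Set E, ∃ q : ℕ, IsOpen W ∧ p ∈ W ∧ W ⊆ U ∧ V.spt ∩ W = S ∧
    IsSmoothSubmanifold m S ∧ IsMinimalIn m S W ∧ 1 ≤ q ∧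
    V.weight.restrict W = (q : ℝ≥0∞) • (μH[m] : Measure E).restrict S

/-- the singular set -/
def sing : Set E := {p ∈ V.spt | ¬ V.IsRegular p}

end Varifold

end Vale.Agent.P214T
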