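import Vale.Agent.P214T.Defs

/-! Uniqueness of the tangent plane. -/

open MeasureTheory Set Filter Topology Metric

namespace Vale.Agent.P214T

open Vale.Agent.P214

theorem uniq81 (m : ℕ) (E : Type*) [NormedAddCommGroup E] [InnerProductSpace ℝ E]
    [FiniteDimensional ℝ E] [MeasurableSpace E] [BorelSpace E] : UNIQ m E := by
  intro μ x T T' ⟨hT, c, hc, h⟩ ⟨hT', c', _, h'⟩
  obtain ⟨ι, hr, -⟩ := AREA.exists_param hT
  have := AREA.haar_euc m
  have cl : IsClosed (T' : Set E) := T'.closed_of_finiteDimensional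
  let g : E → ℝ := fun z => max 0 (1 - ‖z‖) * infDist z T'
  have g1 : Continuous g :=
    (continuous_const.max (continuous_const.sub continuous_norm)).mul (continuous_infDist_pt _)
  have g2 : HasCompactSupport g := HasCompactSupport.intro (isCompact_closedBall 0 1) fun z hz => by
    rw [mem_closedBall_zero_iff, not_le] at hz
    exact mul_eq_zero_of_left (max_eq_left (sub_nonpos.2 hz.le)) _
  have k := tendsto_nhds_unique (h g g1 g2) (h' g g1 g2)
  rw [setIntegral_eq_zero_of_forall_eq_zero (t := (T' : Set E))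
      fun z hz => mul_eq_zero_of_right _ (infDist_zero_of_mem hz), mul_zero,
    mul_eq_zero_iff_left hc.ne', ← hr, ← ι.isometry.map_hausdorffMeasure (.inl (Nat.cast_nonneg m)),
    ι.isometry.isClosedEmbedding.integral_map] at k
  refine Submodule.eq_of_le_of_finrank_eq (fun v hv => ?_) (hT.trans hT'.symm)
  have v0 : 0 < ‖v‖ + 1 := by positivity
  obtain ⟨w, hw⟩ := hr.ge (T.smul_mem (‖v‖ + 1)⁻¹ hv)
  have k2 : g (ι w) = 0 := by_contra fun a =>
    ((g1.comp ι.continuous).integral_pos_of_hasCompactSupport_nonneg_nonzero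
      (μ := (μH[m] : Measure (F m))) (g2.comp_isClosedEmbedding ι.isometry.isClosedEmbedding)
      (fun z => mul_nonneg (le_max_left _ _) infDist_nonneg) a).ne' k
  have k3 : ‖ι w‖ < 1 := by
    rw [hw, norm_smul, norm_inv, Real.norm_of_nonneg v0.le, inv_mul_lt_one₀ v0]
    exact lt_add_one _
  have k4 := (cl.mem_iff_infDist_zero ⟨0, T'.zero_mem⟩).2 ((mul_eq_zero.1 k2).resolve_left
    (lt_max_of_lt_right (sub_pos.2 k3)).ne')
  rw [hw] at k4
  exact (T'.smul_mem_iff (inv_ne_zero v0.ne')).1 k4

end Vale.Agent.P214T
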