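import Vale.Agent.P214T.Bla82
import Vale.Agent.P214T.Blb95
import Vale.Agent.P214T.Blow99
import Vale.Agent.P214T.Bnd28
import Vale.Agent.P214T.Cov94
import Vale.Agent.P214T.Dens85
import Vale.Agent.P214T.Jac48
import Vale.Agent.P214T.Loc99
import Vale.Agent.P214T.Pm76
import Vale.Agent.P214T.Prj97
import Vale.Agent.P214T.Sard9
import Vale.Agent.P214T.Uniq81

/-! Existence and measurability of the tangent plane of an integral varifold. -/

open MeasureTheory Set Filter Topology Metric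
open scoped ENNReal NNReal

namespace Vale.Agent.P214T

open Vale.Agent.P214

variable {m : ℕ} {E : Type*} [NormedAddCommGroup E] [InnerProductSpace ℝ E]
  [FiniteDimensional ℝ E] [MeasurableSpace E] [BorelSpace E] {U : Set E}

theorem Top99.blow : BLOW m E :=
  blow99 m E (cov94 m E) (jac48 m E) (dens85 m E) (bnd m E) (rowBLB m E (jac48 m E) (bla82 m E))
    (pm76 m E)

omit [MeasurableSpace E] [BorelSpace E] in
theorem Top99.cover (hU : IsOpen U) : ∃ W : ℕ → Set E, (∀ j, IsOpen (W j)) ∧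
    (∀ j, ∃ K ⊆ U, IsCompact K ∧ W j ⊆ K) ∧ U ⊆ ⋃ j, W j := by
  have : ProperSpace E := FiniteDimensional.proper_real E
  obtain ⟨T, h1, h2⟩ := TopologicalSpace.isOpen_iUnion_countable
    (fun K : {K : Set E // K ⊆ U ∧ IsCompact K} => interior K.1) fun _ => isOpen_interior
  obtain ⟨e, he⟩ := (h1.insert ⟨∅, empty_subset _, isCompact_empty⟩).exists_eq_range
    (insert_nonempty _ _)
  refine ⟨fun j => interior (e j).1, fun _ => isOpen_interior,
    fun j => ⟨_, (e j).2.1, (e j).2.2, interior_subset⟩, fun x hx => ?_⟩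
  obtain ⟨K, k1, k2, k3⟩ := exists_compact_subset hU hx
  obtain ⟨K', k4, k5⟩ := mem_iUnion₂.1 (h2.ge (mem_iUnion.2 ⟨⟨K, k3, k1⟩, k2⟩))
  obtain ⟨j, rfl⟩ := he.le (mem_insert_of_mem _ k4)
  exact mem_iUnion.2 ⟨j, k5⟩

theorem Top99.main (hU : IsOpen U) (V : Varifold m U) :
    AEStronglyMeasurable (fun x => proj (V.tangent x)) V.weight ∧
      ∀ᵐ x ∂V.weight, IsApproxTangent m V.weight x (V.mult x) (V.tangent x) := by
  obtain ⟨W, w1, w2, w3⟩ := Top99.cover hU
  obtain ⟨f₀, f1, f2⟩ := V.rectifiable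
  choose K f1 using f1
  let f : ℕ → F m → E := fun i v => f₀ i (WithLp.ofLp v)
  have f3 : ∀ i, LipschitzWith (K i * 1) (f i) := fun i =>
    (f1 i).comp (PiLp.lipschitzWith_ofLp 2 fun _ : Fin m => ℝ)
  choose u u1 u2 using fun i => cov94 m E (f i) _ one_half_pos
  obtain ⟨A, a1, a2, a3⟩ := V.carrier_meas.exists_measurable_subset_ae_eq
  let θ := V.mult_meas.mk
  have hθ : Measurable θ := V.mult_meas.measurable_mk
  have hac : V.weight ≪ (μH[m] : Measure E).restrict V.carrier :=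
    withDensity_absolutelyContinuous _ _
  have hw : V.weight = ((μH[m] : Measure E).restrict A).withDensity fun x => (θ x : ℝ≥0∞) := by
    rw [Measure.restrict_congr_set a3]
    exact withDensity_congr_ae (V.mult_meas.ae_eq_mk.mono fun x hx => congrArg Nat.cast hx)
  let s : ℕ × ℕ × ℕ × ℕ → Set (F m) := fun p =>
    u p.1 p.2.1 ∩ f p.1 ⁻¹' (A ∩ W p.2.2.1 ∩ θ ⁻¹' {p.2.2.2})
  have s1 : ∀ p, Pc (f p.1) (1 / 2) (s p) := fun p => (u1 _ _).mono ((u1 _ _).1.inter
    ((f3 _).continuous.measurable ((a2.inter (w1 _).measurableSet).inter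
      (hθ (measurableSet_singleton _))))) inter_subset_left
  have s2 : ∀ p, MeasurableSet (f p.1 '' s p) := fun p => (s1 p).1.image_of_continuousOn_injOn
    (f3 _).continuous.continuousOn ((s1 p).injOn one_half_lt_one)
  have s3 : ∀ p, f p.1 '' s p ⊆ A ∩ W p.2.2.1 ∩ θ ⁻¹' {p.2.2.2} := fun p =>
    image_subset_iff.2 inter_subset_right
  have s4 : ∀ p : ℕ × ℕ × ℕ × ℕ, ∀ᵐ y ∂V.weight, ∀ a ∈ s p, f p.1 a = y →
      IsApproxTangent m V.weight y p.2.2.2 (rg (fderiv ℝ (f p.1) a)) := fun p => by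
    obtain ⟨C, c1, c2, c3⟩ := w2 p.2.2.1
    have : IsFiniteMeasure (V.weight.restrict (W p.2.2.1)) :=
      isFiniteMeasure_restrict.2 ((measure_mono c3).trans_lt (V.locFinite C c1 c2)).ne
    have h := Top99.blow (V.weight.restrict (W p.2.2.1)) (f p.1) _ (s p) p.2.2.2 (f3 _) (s1 p) (by
      rw [Measure.restrict_restrict_of_subset fun y hy => (s3 p hy).1.2, hw,
        restrict_withDensity (s2 p), Measure.restrict_restrict_of_subset fun y hy => (s3 p hy).1.1,
        ← withDensity_const]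
      exact withDensity_congr_ae ((ae_restrict_mem (s2 p)).mono fun y hy =>
        congrArg Nat.cast (s3 p hy).2))
    filter_upwards [ae_imp_of_ae_restrict h] with y hy a ha e
    have k := (s3 p ⟨a, ha, e⟩).1.2
    exact loc99 m E _ _ _ _ _ (w1 _) k (hy k a ha e)
  have s5 : ∀ᵐ y ∂V.weight, (θ y = V.mult y ∧ 1 ≤ θ y) ∧ y ∈ ⋃ p, f p.1 '' s p := by
    have h1 : ∀ᵐ y ∂V.weight, y ∈ A := by
      rw [hw]
      exact withDensity_absolutelyContinuous _ _ (ae_restrict_mem a2)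
    filter_upwards [h1, hac V.mult_meas.ae_eq_mk,
      hac (ae_restrict_of_ae (measure_eq_zero_iff_ae_notMem.1 f2)), hac (ae_restrict_of_ae
        (ae_all_iff.2 fun i => measure_eq_zero_iff_ae_notMem.1 (sard9 m E (f i) _ (f3 i))))]
      with y k1 k2 k3 k4
    refine ⟨⟨k2.symm, le_of_le_of_eq (V.mult_pos y (a1 k1)) k2⟩, ?_⟩
    obtain ⟨i, v, rfl⟩ := mem_iUnion.1 (by_contra fun c => k3 ⟨a1 k1, c⟩)
    obtain ⟨n, hn⟩ := mem_iUnion.1 (u2 i (a := WithLp.toLp 2 v)
      (by_contra fun c => k4 i ⟨_, c, rfl⟩))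
    obtain ⟨j, hj⟩ := mem_iUnion.1 (w3 (V.carrier_subset (a1 k1)))
    exact mem_iUnion.2 ⟨(i, n, j, θ (f₀ i v)), _, ⟨hn, ⟨k1, hj⟩, rfl⟩, rfl⟩
  have s6 : ∀ᵐ y ∂V.weight, ∀ p, ∀ a ∈ s p, f p.1 a = y →
      V.tangent y = rg (fderiv ℝ (f p.1) a) := by
    filter_upwards [ae_all_iff.2 s4, s5] with y k1 k2 p a ha e
    have k := k1 p a ha e
    have k3 : IsTangent m V.weight y (rg (fderiv ℝ (f p.1) a)) :=
      ⟨k.1, _, Nat.cast_pos.2 (lt_of_lt_of_eq k2.1.2 (s3 p ⟨a, ha, e⟩).2), k.2⟩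
    exact uniq81 m E _ _ _ _ (Classical.epsilon_spec ⟨_, k3⟩) k3
  constructor
  · rw [← Measure.restrict_eq_self_of_ae_mem (s5.mono fun _ k => k.2),
      aestronglyMeasurable_iUnion_iff]
    intro p
    obtain ⟨P, p1, p2⟩ := prj97 m E (f p.1) (s p) (f3 _).continuous (s1 p)
    refine ⟨P, p1, ?_⟩
    filter_upwards [ae_restrict_of_ae s6, ae_restrict_mem (s2 p)] with y k1 ⟨a, ha, e⟩
    rw [k1 p a ha e, ← e, p2 a ha]
  · filter_upwards [ae_all_iff.2 s4, s5, s6] with y k1 k2 k3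
    obtain ⟨p, a, ha, e⟩ := mem_iUnion.1 k2.2
    rw [k3 p a ha e, ← k2.1.1, show θ y = p.2.2.2 from (s3 p ⟨a, ha, e⟩).2]
    exact k1 p a ha e

/-- the varifold with its tangent planes -/
noncomputable def Top99.toIV (hU : IsOpen U) (V : Varifold m U) : IntegralVarifold m U :=
  ⟨V.carrier, V.mult, V.tangent, V.carrier_subset, V.carrier_meas, V.rectifiable, V.mult_meas,
    V.mult_pos, V.locFinite, (Top99.main hU V).1, (Top99.main hU V).2⟩

end Vale.Agent.P214T
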